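import Mathlib
import Vale.Agent.P371.Thr.Lifting

/-!
The sharp Lieb–Thirring constant in one dimension for every `1 / 2 < γ < 3 / 2` and every matrix size:
it is the one-bound-state constant.
-/

open MeasureTheory ComplexConjugate
open scoped ComplexOrder

namespace Vale.Agent.Results.P371.MatrixFullRange

/-- For `1 / 2 < γ < 3 / 2` and every size `m ≥ 1`, the one-bound-state constant
`2 ((γ - 1/2) / (γ + 1/2)) ^ (γ - 1/2) Lᶜˡ` is the least `L` for which every positive semidefinite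
matrix potential and every finite orthonormal family diagonalizing the form of `-d²/dx² - W`
satisfies the moment bound. -/
theorem result (γ : ℝ) (hγ : 1 / 2 < γ) (hγ' : γ < 3 / 2) (m : ℕ) (hm : 0 < m) :
    IsLeast {L : ℝ | ∀ (W : ℝ → Matrix (Fin m) (Fin m) ℂ) (hW : ∀ x, (W x).PosSemidef),
        (∀ a b, Measurable fun x => W x a b) →
        (Integrable fun x => ∑ i, (hW x).isHermitian.eigenvalues i ^ (γ + 1 / 2)) →
        ∀ (N : ℕ) (ψ : Fin N → ℝ → Fin m → ℂ),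
        (∀ j a, ContDiff ℝ 1 fun x => ψ j x a) → (∀ j a, HasCompactSupport fun x => ψ j x a) →
        (∀ j k, j ≠ k → ∫ x, ∑ a, conj (ψ j x a) * ψ k x a = 0) →
        (∀ j, ∫ x, ∑ a, ‖ψ j x a‖ ^ 2 = 1) →
        (∀ j k, j ≠ k → (∫ x, ∑ a, ∑ b, conj (ψ j x a) * W x a b * ψ k x b) -
            ∫ x, ∑ a, conj (deriv (fun y => ψ j y a) x) * deriv (fun y => ψ k y a) x = 0) →
        ∑ j, max 0 ((∫ x, (∑ a, ∑ b, conj (ψ j x a) * W x a b * ψ j x b).re) -
            ∫ x, ∑ a, ‖deriv (fun y => ψ j y a) x‖ ^ 2) ^ γ ≤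
          L * ∫ x, ∑ i, (hW x).isHermitian.eigenvalues i ^ (γ + 1 / 2)}
      (2 * ((γ - 1 / 2) / (γ + 1 / 2)) ^ (γ - 1 / 2) *
        (Real.Gamma (γ + 1) / (2 * Real.sqrt Real.pi * Real.Gamma (γ + 3 / 2)))) := by
  have e : ∀ {N : ℕ} (W : ℝ → Matrix (Fin m) (Fin m) ℂ) (ψ : Fin N → ℝ → Fin m → ℂ) j x,
      (star (ψ j x) ⬝ᵥ Matrix.mulVec (W x) (ψ j x)) =
      ∑ a, ∑ b, conj (ψ j x a) * W x a b * ψ j x b := fun W ψ j x => by
    simp only [dotProduct, Matrix.mulVec, Pi.star_apply, Finset.mul_sum, mul_assoc]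
    rfl
  refine ⟨fun W hW hWm hWi N ψ hψ hsupp horth hnorm hdiag => ?_, fun L hL =>
    Vale.Agent.P371.Thr.sharp_bound hγ hm fun W hW hWm hWi N ψ hψ hsupp horth hnorm hdiag => ?_⟩
  · have h := Vale.Agent.P371.Thr.moment_bound hγ hγ' W hW hWm hWi ψ hψ hsupp horth hnorm hdiag
    simpa only [Vale.Agent.P371.Sharp.energyM, e, Vale.Agent.P371.Thr.lt1] using h
  · have h := hL W hW hWm hWi N ψ hψ hsupp horth hnorm hdiag
    simpa only [Vale.Agent.P371.Sharp.energyM, e] using h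

end Vale.Agent.Results.P371.MatrixFullRange
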